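import Mathlib
import Vale.Agent.P339.H283.Defs
import Vale.Agent.P339.H283.Main

/-!
P339: `Gap_4(1, s)` (2-to-1 games with perfect completeness, alphabets of sizes 8 and 4) is NP-hard
for every `s > 9/10`; hence `s* ≤ 9/10`. The PCP theorem and parallel repetition are proved in the
imported files.
-/

namespace Vale.Agent.Results.P339.NineTenths

open Vale.Agent.P339.H283

theorem result :
    (∀ s : ℝ, 9 / 10 < s → GapHard 4 1 s) ∧ sStar ≤ 9 / 10 :=
  ⟨fun _ hs => gapHard hs, sStar_le⟩

end Vale.Agent.Results.P339.NineTenths
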