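import Mathlib
import Vale.Agent.P339.H283.Defs
import Vale.Agent.P339.H937.Main

/-!
P339: for every `s > (18 + √2) / 23 = 0.8441...` there is an alphabet size `q` such that
`Gap_q(1, s)` (2-to-1 games with perfect completeness) is NP-hard; hence `s* ≤ (18 + √2) / 23`.
The PCP theorem and parallel repetition are proved in the imported files.
-/

namespace Vale.Agent.Results.P339.SqrtTwo

open Vale.Agent.P339.H283 Vale.Agent.P339.H937

theorem result :
    (∀ s : ℝ, (18 + Real.sqrt 2) / 23 < s → ∃ q : ℕ, 2 ≤ q ∧ GapHard q 1 s) ∧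
      sStar ≤ (18 + Real.sqrt 2) / 23 :=
  ⟨fun _ hs => gapHard' hs, sStar_le'⟩

end Vale.Agent.Results.P339.SqrtTwo
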