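import Vale.Agent.P339.H898.Final

/-!
# 2-to-1 games with perfect completeness in subexponential time

There is an absolute constant `C` such that for all `q`, all exponents `α ∈ (0, 1]` and all
`δ ≤ 2 ^ (-C * (1 + log (1 / α)) / α)` the problem `Gap_q(1, δ)` (2-to-1 games of value `1` against
value at most `δ`) is decided by a deterministic Turing machine in time `2 ^ (C' * n ^ α)`, `n` the
length of the input. So the exponent is `α = O(log log (1 / δ) / log (1 / δ))`. Hence every problem
which has a polynomial time reduction to `Gap_q(1, δ)` with games of code length at most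
`A * (m + 1) ^ b` (`m` the length of the input) is decided in time `2 ^ (C' * (m + 1) ^ (b * α))`.
-/

theorem Vale.Agent.Results.P339.SubexpTwoToOne.result : ∃ C : ℝ, 0 < C ∧ ∀ (q : ℕ) (α δ : ℝ),
    1 ≤ q → 0 < α → α ≤ 1 → δ ≤ 1 / 2 ^ (C * (1 + Real.log (1 / α)) / α) →
    Vale.Agent.P325.SolvedIn
      (Vale.Agent.P339.H283.gameW : Vale.Agent.P339.H283.Game q → List Bool)
      (fun G => (Vale.Agent.P339.H283.gameW G).length)
      (fun G => 1 ≤ G.value) (fun G => G.value ≤ δ) α ∧
    ∀ (ι : Type) (code : ι → List Bool) (yes : ι → Prop)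
      (f : ι → Vale.Agent.P339.H283.Game q) (A b : ℝ), 0 < b →
      Vale.Agent.P339.H283.PolyTime code Vale.Agent.P339.H283.gameW f →
      (∀ x, ((Vale.Agent.P339.H283.gameW (f x)).length : ℝ) ≤
        A * (((code x).length : ℝ) + 1) ^ b) →
      (∀ x, yes x → 1 ≤ (f x).value) → (∀ x, ¬ yes x → (f x).value ≤ δ) →
      Vale.Agent.P325.SolvedIn code (fun x => ((code x).length : ℝ) + 1) yes
        (fun x => ¬ yes x) (b * α) :=
  Vale.Agent.P339.H898.result_two_to_one
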